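import Vale.Agent.P102.MathlibUsed

namespace Vale.Agent.P102

open MeasureTheory Filter Topology

/-- `T` is mixing of order `k` with respect to `μ`: for all measurable `A₁, …, A_k` and all
`ε > 0` there is `N` such that `|μ (⋂ i, T^{-t i} A_i) - ∏ i, μ (A_i)| < ε` for every tuple of
integers `t₁, …, t_k` with `t i + N ≤ t j` for `i < j`. -/
def MixingOfOrder {α : Type*} [MeasurableSpace α] (μ : Measure α) (T : Equiv.Perm α)
    (k : ℕ) : Prop :=
  ∀ A : Fin k → Set α, (∀ i, MeasurableSet (A i)) → ∀ ε : ℝ, 0 < ε → ∃ N : ℤ,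
    ∀ t : Fin k → ℤ, (∀ i j, i < j → t i + N ≤ t j) →
      |μ.real (⋂ i, (T ^ t i : Equiv.Perm α) ⁻¹' A i) - ∏ i, μ.real (A i)| < ε

/-- The action of `ℤ^d` on `X` by `x ↦ v +ᵥ x` preserves `μ` and is mixing (of order 2):
`μ (A ∩ R^{-v} B) → μ A * μ B` as `|v| → ∞`, for all measurable `A, B`. -/
def MixingAction {X : Type*} [MeasurableSpace X] (μ : Measure X) (d : ℕ)
    [AddAction (Fin d → ℤ) X] : Prop :=
  (∀ v : Fin d → ℤ, MeasurePreserving (fun x : X => v +ᵥ x) μ μ) ∧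
  ∀ A B : Set X, MeasurableSet A → MeasurableSet B →
    Tendsto (fun v : Fin d → ℤ => μ.real (A ∩ (fun x : X => v +ᵥ x) ⁻¹' B)) cofinite
      (𝓝 (μ.real A * μ.real B))

/-- The skew product `(ω, x) ↦ (θ ω, R^{φ ω} x)`. -/
def skewProduct {Ω : Type*} (X : Type*) {d : ℕ} [AddAction (Fin d → ℤ) X]
    (θ : Equiv.Perm Ω) (φ : Ω → (Fin d → ℤ)) : Equiv.Perm (Ω × X) :=
  θ.prodShear fun ω => AddAction.toPerm (φ ω)

/-- `φ` is cohomologous, over `θ`, to the constant `c`: `φ = c + h ∘ θ - h` almost everywhere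
for some measurable `h`. -/
def CohomologousToConst {Ω : Type*} [MeasurableSpace Ω] (P : Measure Ω) {d : ℕ}
    (θ : Equiv.Perm Ω) (φ : Ω → (Fin d → ℤ)) (c : Fin d → ℤ) : Prop :=
  ∃ h : Ω → (Fin d → ℤ), Measurable h ∧ ∀ᵐ ω ∂P, φ ω = c + h (θ ω) - h ω

end Vale.Agent.P102
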