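import Mathlib.Algebra.Ring.IsFormallyReal
import Mathlib.Analysis.Convex.Integral
import Mathlib.Analysis.InnerProductSpace.MeanErgodic
import Mathlib.Analysis.InnerProductSpace.OfNorm
import Mathlib.Analysis.Normed.Group.Tannery
import Mathlib.Analysis.Normed.Module.WeakDual
import Mathlib.Analysis.Real.Pi.Bounds
import Mathlib.Analysis.SpecialFunctions.Complex.Circle
import Mathlib.Computability.Reduce
import Mathlib.Data.Int.Star
import Mathlib.GroupTheory.FiniteAbelian.Basic
import Mathlib.MeasureTheory.Function.Floor
import Mathlib.MeasureTheory.Function.L2Space
import Mathlib.MeasureTheory.Order.Group.Lattice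
import Mathlib.NumberTheory.NumberField.InfinitePlace.Embeddings
import Mathlib.Order.CompletePartialOrder
import Mathlib.RingTheory.Henselian
import Mathlib.RingTheory.Ideal.AssociatedPrime.Basic
import Mathlib.RingTheory.RegularLocalRing.Defs
import Mathlib.RingTheory.SimpleRing.Principal
import Mathlib.RingTheory.TotallySplit
import Mathlib.Tactic
import Mathlib.Topology.Order.LowerUpperTopology
import Mathlib.Topology.Separation.CompletelyRegular

/-! The part of Mathlib that the development of this folder uses. -/
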